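import Vale.Agent.H9.CK.Main

/-!
# P322: the Courtade-Kumar conjecture

The cube `{-1,1}^n` is `Fin n → ℤˣ`. The vector `X` is uniform on it, the coordinates of `Z` are
independent of `X` and of each other and equal to `-1` with probability `ε`, and `Y = X * Z`
(coordinatewise product).
-/

open Real

namespace Vale.Agent.Results.P322.CourtadeKumar

/-- `P(Z = z)` for a vector `Z` of `n` independent signs, each of them equal to `-1` with
probability `ε` and to `1` with probability `1 - ε`. -/
noncomputable def noiseProb {n : ℕ} (ε : ℝ) (z : Fin n → ℤˣ) : ℝ :=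
  ∏ i, if z i = -1 then ε else 1 - ε

/-- `P(f(X) = b and Y = y)`, where `Y = X * Z`, `X` is uniform on `{-1,1}^n` and `Z` is independent
of `X` with the law `noiseProb ε`: the sum over all pairs `(x, z)` with `f x = b` and `x * z = y` of
`2^(-n) * P(Z = z)`. -/
noncomputable def jointProb {n : ℕ} (f : (Fin n → ℤˣ) → ℤˣ) (ε : ℝ) (b : ℤˣ)
    (y : Fin n → ℤˣ) : ℝ :=
  ∑ x : Fin n → ℤˣ, ∑ z : Fin n → ℤˣ,
    if f x = b ∧ x * z = y then (1 / 2 : ℝ) ^ n * noiseProb ε z else 0

/-- Mutual information in bits of two discrete random variables with joint law `p` (with the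
convention `0 * log 0 = 0`): the sum of `p(a,b) * log_2 (p(a,b) / (p_1(a) * p_2(b)))`, where
`p_1` and `p_2` are the marginal laws. -/
noncomputable def mutualInformation {α β : Type} [Fintype α] [Fintype β] (p : α → β → ℝ) : ℝ :=
  ∑ a, ∑ b, p a b * logb 2 (p a b / ((∑ b', p a b') * ∑ a', p a' b))

/-- The binary entropy function `h_2` in bits. -/
noncomputable def h2 (p : ℝ) : ℝ := -p * logb 2 p - (1 - p) * logb 2 (1 - p)

/-- **The Courtade-Kumar conjecture**: `I(f(X); Y) ≤ 1 - h_2(ε)` for every `n`, every Boolean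
function `f` on `{-1,1}^n` and every `ε ∈ [0, 1/2]`. -/
theorem result (n : ℕ) (f : (Fin n → ℤˣ) → ℤˣ) (ε : ℝ) (h0 : 0 ≤ ε) (h1 : ε ≤ 1 / 2) :
    mutualInformation (jointProb f ε) ≤ 1 - h2 ε :=
  CK.courtade_kumar f ε h0 h1

end Vale.Agent.Results.P322.CourtadeKumar
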